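import Vale.Agent.P144Y.Defs
import Vale.Agent.P144S.F.All

/-!
From the families of blocks to all families.
-/

namespace Vale.Agent.P144Y.F

open Filter Topology Metric Vale.Agent.P144
open Vale.Agent.P144.H170 (Pt pt nf ev_nf)
open Vale.Agent.P144S.F (mix mix_ind eq_of_mix)

theorem GW_anti (hM : SMM) {P Q : ℝ → Finset Site} (h : ∀ᶠ a in 𝓝[>] (0 : ℝ), P a ⊆ Q a)
    (X S : Finset ℂ) : ∀ᶠ a in 𝓝[>] (0 : ℝ), GW Q X S a ≤ GW P X S a := by
  filter_upwards [h, self_mem_nhdsWithin] with a h1 h4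
  exact mul_le_mul_of_nonneg_left (hM.anti _ _ _ h1) (Real.rpow_nonneg (le_of_lt h4) _)

theorem fam0_mix {D : Set ℂ} (S : Set ℝ) {P Q : ℝ → Finset Site} (g : Finset Site → Finset Site)
    (hP : Fam0 D fun a => g (P a)) (hQ : Fam0 D fun a => g (Q a)) :
    Fam0 D fun a => g (mix S P Q a) where
  inn := fun z hz => by
    filter_upwards [hP.inn z hz, hQ.inn z hz] with kx h1 h2
    exact mix_ind (fun T => kx.2 ∈ g T) h1 h2
  sub := fun ε hε => by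
    filter_upwards [hP.sub ε hε, hQ.sub ε hε] with a h1 h2
    exact mix_ind (fun T => ∀ x ∈ g T, ∃ z ∈ D, ‖pt a x - z‖ ≤ ε) h1 h2
  kc := by
    obtain ⟨r, hr, h1⟩ := hP.kc
    obtain ⟨s, hs, h2⟩ := hQ.kc
    refine ⟨min r s, lt_min hr hs, ?_⟩
    filter_upwards [h1, h2] with a h1 h2
    exact mix_ind (fun T => ∀ x ∉ g T, ∀ y ∉ g T, ‖pt a x - pt a y‖ ≤ min r s → Kg (g T) x y)
      (fun x hx y hy h => h1 x hx y hy (h.trans (min_le_left _ _)))
      fun x hx y hy h => h2 x hx y hy (h.trans (min_le_right _ _))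

theorem famP_mix {D : Set ℂ} (S : Set ℝ) {P Q : ℝ → Finset Site} (hP : FamP D P)
    (hQ : FamP D Q) : FamP D (mix S P Q) := by
  refine ⟨fam0_mix S id hP.1 hQ.1, ?_⟩
  obtain ⟨r, hr, h1⟩ := hP.2
  obtain ⟨s, hs, h2⟩ := hQ.2
  refine ⟨min r s, lt_min hr hs, ?_⟩
  filter_upwards [h1, h2] with a h1 h2
  exact mix_ind (fun T => ∀ x ∉ T, ∀ y ∉ T, ‖pt a x - pt a y‖ ≤ min r s → Cn T x y)
    (fun x hx y hy h => h1 x hx y hy (h.trans (min_le_left _ _)))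
    fun x hx y hy h => h2 x hx y hy (h.trans (min_le_right _ _))

theorem famB_mix {D : Set ℂ} (S : Set ℝ) {P Q : ℝ → Finset Site} (hP : FamB D P)
    (hQ : FamB D Q) : FamB D (mix S P Q) :=
  ⟨famP_mix S hP.1 hQ.1, fun a => mix_ind Blk (hP.2.1 a) (hQ.2.1 a),
    fam0_mix S Vx hP.2.2 hQ.2.2⟩

theorem all (hM : SMM) (hS : SSand) : SAll := by
  intro D X S hD hO ⟨P₀, hP₀⟩ h
  obtain ⟨Q, -, hQ, -, -⟩ := hS D P₀ hD hO hP₀
  obtain ⟨g, hg, hl⟩ := h Q hQ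
  have key : ∀ P, FamB D P → Tendsto (GW P X S) (𝓝[>] 0) (𝓝 g) := fun P hP => by
    obtain ⟨g', -, hl'⟩ := h P hP
    obtain ⟨g'', -, hl''⟩ := h _ (famB_mix {a | Irrational a} hP hQ)
    rwa [← eq_of_mix hl' hl hl''
      (fun a ha => by unfold GW mix; rw [if_pos (show a ∈ {a | Irrational a} from ha)])
      fun a ha => by unfold GW mix; rw [if_neg (show a ∉ {a | Irrational a} from ha)]]
  refine ⟨g, hg, fun P hP => ?_⟩
  obtain ⟨P₁, P₂, h1, h2, h3⟩ := hS D P hD hO hP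
  exact tendsto_of_tendsto_of_tendsto_of_le_of_le' (key P₂ h2) (key P₁ h1)
    (GW_anti hM (h3.mono fun a h => h.2) X S) (GW_anti hM (h3.mono fun a h => h.1) X S)

end Vale.Agent.P144Y.F
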