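import Vale.Agent.P144Y.K.KW
import Vale.Agent.P144Y.H.Ex
import Vale.Agent.P144S.F.Asm

/-!
The mixed correlations for the plus boundary condition from the kernels and the normalisation, in
multiply connected domains.
-/

namespace Vale.Agent.P144Y.F

open Filter Topology Finset Vale.Agent.P144 Vale.Agent.P144Z.St
open Vale.Agent.P144.AL (cnr ep el fcs sps Pf flat cenK)
open Vale.Agent.P144.H170 (rM)
open Vale.Agent.P144S.F (ce_cnr sj ep_ce sj_sq cl lb lb_nodup lb_even lb_prod cl_inj el_lb QQ_lb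
  fcs_lb wl sub_lb)
open Vale.Agent.P144S.K (sd exists_fb)
open Vale.Agent.P144S.W (QQ_pos MM_pos)

/-- Two linear functionals which agree on the monomials agree on the centred products. -/
theorem lin_agree {Ω ι : Type} {L L' : (Ω → ℝ) → ℝ}
    (hL : ∀ f g : Ω → ℝ, ∀ c, L (fun w => f w - c * g w) = L f - c * L g)
    (hL' : ∀ f g : Ω → ℝ, ∀ c, L' (fun w => f w - c * g w) = L' f - c * L' g)
    (X : ι → Ω → ℝ) (t : ι → ℝ) (ks : List ι) : ∀ G : Ω → ℝ, (∀ s : List ι, s.Sublist ks →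
      L (fun w => G w * (s.map fun k => X k w).prod) =
        L' (fun w => G w * (s.map fun k => X k w).prod)) →
    L (fun w => G w * (ks.map fun k => X k w - t k).prod) =
      L' (fun w => G w * (ks.map fun k => X k w - t k).prod) := by
  induction ks with
  | nil => exact fun G h => h [] (List.Sublist.refl _)
  | cons k ks ih =>
    intro G h
    have e : (fun w => G w * ((k :: ks).map fun k => X k w - t k).prod) = fun w =>
        (G w * X k w) * (ks.map fun k => X k w - t k).prod -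
          t k * (G w * (ks.map fun k => X k w - t k).prod) := by
      funext w
      rw [List.map_cons, List.prod_cons]
      ring
    rw [e, hL, hL', ih (fun w => G w * X k w) fun s hs => ?_, ih G fun s hs => h s (hs.cons k)]
    have := h (k :: s) (hs.cons_cons k)
    simpa only [List.map_cons, List.prod_cons, mul_assoc] using this

/-- The configuration with the minus set `U`. -/
noncomputable def cfg (U : Finset Site) : Config := fun x => decide (x ∉ U)

theorem sp_cfg (U : Finset Site) (x : Site) : sp (cfg U x) = ms U x := by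
  unfold cfg ms
  by_cases h : x ∈ U <;> simp [h, sp]

/-- The model in which every component of the complement carries one spin. -/
noncomputable def Lw (M : ℕ) (P : Finset Site) (R : Multiset Site) (F : Config → ℝ) : ℝ :=
  2 ^ (box M).card / 2 ^ (box M \ Vx P).card / QQ P 0 0 * ∑ U ∈ (fb M).powerset,
    (∏ e ∈ bd M U, sd P e) * tc ^ (bd M U).card * (R.map (ms U)).prod * F (cfg U)

theorem Lw_lin (M : ℕ) (P : Finset Site) (R : Multiset Site) (f g : Config → ℝ) (c : ℝ) :
    Lw M P R (fun w => f w - c * g w) = Lw M P R f - c * Lw M P R g := by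
  unfold Lw
  rw [mul_left_comm, ← mul_sub, mul_sum _ _ c, ← sum_sub_distrib]
  congr 1
  exact sum_congr rfl fun U _ => by ring

theorem Lw_mon {M : ℕ} {P : Finset Site} (hP : P ⊆ fb M) (R R' : Multiset Site) :
    Lw M P R' (fun σ => (R.map fun x => sp (σ x)).prod) = MM P (R + R') := by
  have h := K.QQ_adm hP (R + R')
  have h0 := (QQ_pos P 0).ne'
  unfold Lw MM
  simp only [sp_cfg]
  rw [sum_congr rfl fun U _ => show (∏ e ∈ bd M U, sd P e) * tc ^ (bd M U).card *
    (R'.map (ms U)).prod * (R.map fun x => ms U x).prod = (∏ e ∈ bd M U, sd P e) *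
      tc ^ (bd M U).card * ((R + R').map (ms U)).prod by
      rw [Multiset.map_add, Multiset.prod_add]; ring]
  field_simp
  linear_combination -h

theorem pl_lin (J : ℝ) (P : Finset Site) (f g : Config → ℝ) (c : ℝ) :
    pl J P (fun σ => f σ - c * g σ) = pl J P f - c * pl J P g := by
  unfold pl gibbs P144.expect
  simp only [sub_mul, mul_assoc, Finset.sum_sub_distrib, ← Finset.mul_sum]
  ring

section

variable {m : ℕ} {v : Fin m → Site} {j : Fin m → Fin 2} {P : Finset Site}
  (h : ∀ k l, k ≠ l → v k + dir (j k) ≠ v l + dir (j l)) (hv : ∀ k, v k + dir (j k) ∈ P)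

theorem mon_eq (R : Multiset Site) (s : List (Fin m)) :
    (fun σ : Config => (R.map fun x => sp (σ x)).prod *
      (s.map fun k => sp (σ (v k)) * sp (σ (v k + dir (j k)))).prod) =
      fun σ => ((fcs ((lb s).map (cl v j)) + R).map fun x => sp (σ x)).prod := by
  funext σ
  rw [Multiset.map_add, Multiset.prod_add, fcs_lb, mul_comm]

include h hv

theorem base (R : Multiset Site) {s : List (Fin m)} (hs : s.Nodup) :
    MM P (fcs ((lb s).map (cl v j)) + R) = MM P R * Pf (P144S.F.KK P R v j) (lb s) := by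
  have h1 := H.spf P R ((lb s).map (cl v j)) (fun c hc => by
    obtain ⟨x, -, rfl⟩ := List.mem_map.1 hc
    exact ⟨ce_cnr _ _ _, P144S.W.sub_Vx P (hv x.1)⟩) ((lb_nodup hs).map (cl_inj h))
    (by rw [List.length_map]; exact lb_even s)
  have h3 : ((lb s).map (wl j)).prod = (s.map fun k => sj (j k)).prod := by
    rw [lb_prod]
    simp [wl]
  unfold P144S.F.KK
  rw [AL.Pf_scale (fun x y => Wf P R [cl v j x, cl v j y]) (wl j) _ (lb_even s), h3,
    ← AL.Pf_map (fun c c' => Wf P R [c, c']) (cl v j), ← h1]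
  unfold Wf MM
  rw [el_lb h hs, QQ_lb]
  have h4 := AL.map_sq s (fun k => sj (j k)) fun k => sj_sq _
  have h5 := (QQ_pos P R).ne'
  have h6 := (QQ_pos P 0).ne'
  field_simp
  linear_combination (-QQ P (fcs ((lb s).map (cl v j)) + R) 0) * h4

theorem Lw_mixed {M : ℕ} (hP : P ⊆ fb M) (R R' : Multiset Site) {s : List (Fin m)} (hs : s.Nodup)
    (t : Fin m → ℝ) : Lw M P R' (fun σ => (R.map fun x => sp (σ x)).prod *
      (s.map fun k => sp (σ (v k)) * sp (σ (v k + dir (j k))) - t k).prod) =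
      MM P (R + R') * Pf (cenK (P144S.F.KK P (R + R') v j) (fun k => (k, false)) (fun k => (k, true)) t s)
        (lb s) := by
  have hM := (MM_pos P (R + R')).ne'
  have h1 := AL.cen_pf (L := fun F => Lw M P R' F / MM P (R + R'))
    (fun f g c => by
      show Lw M P R' (fun σ => f σ - c * g σ) / _ = _
      rw [Lw_lin]
      ring)
    (fun k σ => sp (σ (v k)) * sp (σ (v k + dir (j k)))) t
    (fun σ => (R.map fun x => sp (σ x)).prod) (fun k => (k, false)) (fun k => (k, true))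
    (P144S.F.KK P (R + R') v j) [] [] s (by simpa [lb] using lb_nodup hs) (fun s' hs' => by
      show Lw M P R' _ / _ = _
      rw [mon_eq, Lw_mon hP, add_assoc, base h hv (R + R') (hs.sublist hs'),
        mul_div_cancel_left₀ _ hM]
      simp [lb])
  rw [div_eq_iff hM] at h1
  rw [h1, mul_comm]
  simp [lb]

theorem mixed {J : ℝ} (hJ : 0 < J) {τ : Type} {T : Finset τ} {π : τ → Site}
    (h1 : ∀ t ∈ T, π t ∉ P) (h2 : ∀ v ∉ P, ∃ t ∈ T, Cn P v (π t)) (R : Multiset Site)
    {s : List (Fin m)} (hs : s.Nodup) (t : Fin m → ℝ) :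
    pl J P (fun σ => (R.map fun x => sp (σ x)).prod *
      (s.map fun k => sp (σ (v k)) * sp (σ (v k + dir (j k))) - t k).prod) =
      (∑ S ∈ T.powerset, MM P (R + S.val.map π) * Pf (cenK (P144S.F.KK P (R + S.val.map π) v j)
        (fun k => (k, false)) (fun k => (k, true)) t s) (lb s)) /
        ∑ S ∈ T.powerset, MM P (S.val.map π) := by
  obtain ⟨M, hP⟩ := exists_fb P
  rw [lin_agree (L' := fun F => (∑ S ∈ T.powerset, Lw M P (S.val.map π) F) /
    ∑ S ∈ T.powerset, MM P (S.val.map π)) (pl_lin J P) (fun f g c => by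
      simp only [Lw_lin, sum_sub_distrib, ← mul_sum]
      ring) (fun k σ => sp (σ (v k)) * sp (σ (v k + dir (j k)))) t s _ fun s' _ => by
      rw [mon_eq]
      simp only [Lw_mon hP]
      exact K.skw J hJ P τ T π h1 h2 _]
  simp only [Lw_mixed h hv hP R _ hs t]

end

theorem mean {J : ℝ} (hJ : 0 < J) {P : Finset Site} {τ : Type} {T : Finset τ} {π : τ → Site}
    (h1 : ∀ t ∈ T, π t ∉ P) (h2 : ∀ v ∉ P, ∃ t ∈ T, Cn P v (π t)) (x : Site) (i : Fin 2) :
    pl J P (fun σ => sp (σ x) * sp (σ (x + dir i))) = sj i * ∑ S ∈ T.powerset,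
      MM P (S.val.map π) / (∑ S ∈ T.powerset, MM P (S.val.map π)) *
        Wf P (S.val.map π) [ce x i false, ce x i true] := by
  have h3 := K.skw J hJ P τ T π h1 h2 (x ::ₘ (x + dir i) ::ₘ 0)
  unfold sP at h3
  simp only [Multiset.map_cons, Multiset.prod_cons, Multiset.map_zero, Multiset.prod_zero,
    mul_one] at h3
  rw [h3, mul_sum, sum_div]
  refine sum_congr rfl fun S _ => ?_
  rw [P144S.W.Wf_two, ep_ce]
  have e : QQ P ((ce x i false).2 ::ₘ (ce x i true).2 ::ₘ S.val.map π)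
      ((ce x i false).1 ::ₘ {(ce x i true).1}) =
      QQ P (x ::ₘ (x + dir i) ::ₘ 0 + S.val.map π) 0 := by
    rw [Multiset.cons_add, Multiset.cons_add, zero_add]
    exact P144S.W.QQ_spin_pair P _ 0 _
  rw [e]
  have h5 := (QQ_pos P (S.val.map π)).ne'
  have h6 := (QQ_pos P 0).ne'
  have h7 := sj_sq i
  generalize ∑ S ∈ T.powerset, MM P (S.val.map π) = Z
  unfold MM
  rw [div_eq_mul_inv _ Z, div_eq_mul_inv _ Z]
  field_simp
  linear_combination (-(QQ P (x ::ₘ (x + dir i) ::ₘ 0 + S.val.map π) 0 * Z⁻¹)) * h7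

theorem asm : SAsm := by
  intro J hJ D P T hF hT hk hn p hp1
  have hp : Good0 D p := hp1.2
  have hx : Function.Injective p.x := fun i i' h => Sum.inl_injective (hp.2.2 (by simpa using h))
  have hy : Function.Injective p.y := fun i i' h => Sum.inr_injective (hp.2.2 (by simpa using h))
  have hp0 : Good0 D ⟨0, p.m, Fin.elim0, p.y, p.j⟩ := by
    refine ⟨fun i => i.elim0, hp.2.1, ?_⟩
    rintro (i | k) (i' | l) e
    exacts [i.elim0, i.elim0, i'.elim0, congrArg Sum.inr (hy e)]
  have g0 : ∀ S ∈ T.powerset, ∃ g > 0, Tendsto (fun a => MM (P a) (fm a S)) (𝓝[>] 0) (𝓝 g) := by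
    intro S hS
    obtain ⟨g, hg, h⟩ := hn ∅ (by simp) S (mem_powerset.1 hS)
    exact ⟨g, hg, h.congr fun a => by simp [GW, fm]⟩
  choose! g0 g1 g2 using g0
  have hZ := tendsto_finsetSum T.powerset g2
  have hZ0 : 0 < ∑ S ∈ T.powerset, g0 S := sum_pos g1 ⟨∅, by simp⟩
  have hZ1 : ∀ a, 0 < ∑ S ∈ T.powerset, MM (P a) (fm a S) := fun a =>
    sum_pos (fun _ _ => MM_pos _ _) ⟨∅, by simp⟩
  have g3 : ∀ S ∈ T.powerset, ∃ g, Tendsto (GW P (univ.map ⟨p.x, hx⟩) S) (𝓝[>] 0) (𝓝 g) := by
    intro S hS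
    obtain ⟨g, -, h⟩ := hn (univ.map ⟨p.x, hx⟩) (fun z hz => by
      obtain ⟨i, -, rfl⟩ := mem_map.1 hz
      exact hp.1 i) S (mem_powerset.1 hS)
    exact ⟨g, h⟩
  choose! g hg using g3
  set s := (univ : Finset (Fin p.m)).toList with hs
  have hsn : s.Nodup := nodup_toList _
  set t : ℝ → Fin p.m → ℝ := fun a k => sj (p.j k) * ∑ S ∈ T.powerset,
    MM (P a) (fm a S) / (∑ S ∈ T.powerset, MM (P a) (fm a S)) *
      Wf (P a) (fm a S) [cp p a k false, cp p a k true] with ht
  have ht2 : ∀ k, ∃ c, Tendsto (fun a => (t a k - sj (p.j k) *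
      Wf (P a) 0 [cp p a k false, cp p a k true]) / a) (𝓝[>] 0) (𝓝 c) := by
    intro k
    have k4 : ∀ S ∈ T.powerset, ∃ c, Tendsto (fun a : ℝ =>
        (Wf (P a) (fm a S) [cp p a k false, cp p a k true] -
          Wf (P a) 0 [cp p a k false, cp p a k true]) / a) (𝓝[>] 0) (𝓝 c) := by
      intro S hS
      obtain ⟨c, hc⟩ := (hk _ hp0 S (mem_powerset.1 hS)).2 k
      refine ⟨c, hc.congr fun a => ?_⟩
      have : Rq ⟨0, p.m, Fin.elim0, p.y, p.j⟩ a = 0 := by simp [Rq, rM]
      rw [this, zero_add]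
      rfl
    choose! c hc using k4
    refine ⟨_, ((tendsto_finsetSum T.powerset fun S hS =>
      ((g2 S hS).div hZ hZ0.ne').mul (hc S hS)).const_mul (sj (p.j k))).congr fun a => ?_⟩
    have e : ∑ S ∈ T.powerset, MM (P a) (fm a S) / ∑ S ∈ T.powerset, MM (P a) (fm a S) = 1 := by
      rw [← sum_div, div_self (hZ1 a).ne']
    simp only [ht, Pi.div_apply, ← mul_div_assoc, ← sum_div, mul_sub, sum_sub_distrib, ← sum_mul, e]
    rw [one_mul]
  set Z : Finset ℂ → ℝ → Fin p.m × Bool → Fin p.m × Bool → ℝ := fun S a =>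
    cenK (P144S.F.KK (P a) (Rq p a + fm a S) (fun k => fl a (p.y k)) p.j) (fun k => (k, false))
      (fun k => (k, true)) (t a) s with hZd
  have hl : ∀ S ∈ T.powerset, ∀ x y : Fin p.m × Bool, ∃ c : ℝ, [x, y].Sublist (lb s) →
      Tendsto (fun a => Z S a x y / a) (𝓝[>] 0) (𝓝 c) := by
    rintro S hS ⟨k, b⟩ ⟨l, b'⟩
    obtain ⟨k3, k4⟩ := hk p hp S (mem_powerset.1 hS)
    by_cases hkl : k = l
    · subst hkl
      obtain ⟨c, hc⟩ := k4 k
      obtain ⟨c', hc'⟩ := ht2 k
      refine ⟨sj (p.j k) * c - c', fun h => ?_⟩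
      obtain ⟨-, rfl, rfl⟩ := (sub_lb hsn h).resolve_left (by simp)
      refine ((hc.const_mul _).sub hc').congr fun a => ?_
      simp only [hZd, cenK, hs, sum_map_toList, Prod.mk.injEq, and_true, and_self, sum_ite_eq,
        mem_univ, if_true, P144S.F.KK, wl, cl, cp, Bool.false_eq_true, if_false]
      ring
    · obtain ⟨c, hc⟩ := k3 k l hkl b b'
      refine ⟨wl p.j (k, b) * wl p.j (l, b') * c, fun _ => (hc.const_mul _).congr fun a => ?_⟩
      simp only [hZd, cenK, P144S.F.KK, cl, cp]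
      rw [List.sum_eq_zero fun z hz => ?_]
      · ring
      obtain ⟨q, -, rfl⟩ := List.mem_map.1 hz
      refine if_neg fun h => hkl ?_
      exact (Prod.ext_iff.1 h.1).1.trans (Prod.ext_iff.1 h.2).1.symm
  choose! L hL using hl
  refine ⟨_, ((tendsto_finsetSum T.powerset fun S hS => (hg S hS).mul
    (AL.Pf_tendsto (fun a x y => Z S a x y / a) (L S) (lb s) (hL S hS))).div hZ hZ0.ne').congr' ?_⟩
  have e1 : ∀ᶠ a in 𝓝[>] (0 : ℝ), ∀ k l, k ≠ l →
      fl a (p.y k) + dir (p.j k) ≠ fl a (p.y l) + dir (p.j l) := by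
    refine eventually_all.2 fun k => eventually_all.2 fun l => ?_
    by_cases hkl : k = l
    · simp [hkl]
    · filter_upwards [H170.ev_ne_add AL.idt (AL.flt (p.y k)) (AL.flt (p.y l))
        (fun h => hkl (hy h)) (dir (p.j l) - dir (p.j k))] with a ha _ e
      exact ha (by rw [← add_sub_assoc, ← e, add_sub_cancel_right])
  have e2 : ∀ᶠ a in 𝓝[>] (0 : ℝ), ∀ k, fl a (p.y k) + dir (p.j k) ∈ P a := by
    refine eventually_all.2 fun k => ?_
    filter_upwards [hF.1.deep AL.idt (hp.2.1 k) (AL.flt _) 1] with a ha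
    refine ha _ ?_ ?_ <;> unfold dir <;> split_ifs <;> simp
  filter_upwards [e1, e2, hT, self_mem_nhdsWithin] with a h1 h2 h3 h4
  have ha : 0 < a := h4
  have e3 : ∀ S, (fun x y => Z S a x y / a) = fun x y => (√a)⁻¹ * (√a)⁻¹ * Z S a x y := by
    intro S
    funext x y
    rw [← mul_inv, Real.mul_self_sqrt ha.le, div_eq_inv_mul]
  have e4 : ((lb s).map fun _ => (√a)⁻¹).prod = a⁻¹ ^ p.m := by
    rw [lb_prod, ← mul_inv, Real.mul_self_sqrt ha.le, hs, prod_map_toList]
    simp
  have e5 : fm a (univ.map ⟨p.x, hx⟩ : Finset ℂ) = Rq p a := by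
    unfold fm Rq rM
    rw [map_val, Multiset.map_map]
    rfl
  have e6 : a ^ (-((univ.map ⟨p.x, hx⟩ : Finset ℂ).card : ℝ) / 8) =
      (a ^ (-(1 / 8) : ℝ)) ^ p.n := by
    rw [← Real.rpow_natCast, ← Real.rpow_mul ha.le, card_map, card_univ, Fintype.card_fin]
    congr 1
    ring
  simp only [Pi.div_apply, e3, AL.Pf_scale _ (fun _ => (√a)⁻¹) _ (lb_even s), e4]
  unfold corr GW
  simp only [mean hJ h3.1 h3.2]
  have e7 : (fun σ : Config => (∏ i, a ^ (-(1 / 8) : ℝ) * sp (σ (fl a (p.x i)))) *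
      ∏ k, a⁻¹ * (sp (σ (fl a (p.y k))) * sp (σ (fl a (p.y k) + dir (p.j k))) -
        sj (p.j k) * ∑ S ∈ T.powerset, MM (P a) (S.val.map (fl a)) /
          (∑ S ∈ T.powerset, MM (P a) (S.val.map (fl a))) * Wf (P a) (S.val.map (fl a))
            [ce (fl a (p.y k)) (p.j k) false, ce (fl a (p.y k)) (p.j k) true])) =
      fun σ => ((a ^ (-(1 / 8) : ℝ)) ^ p.n * a⁻¹ ^ p.m) *
        (((Rq p a).map fun x => sp (σ x)).prod * (s.map fun k => sp (σ (fl a (p.y k))) *
          sp (σ (fl a (p.y k) + dir (p.j k))) - t a k).prod) := by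
    funext σ
    have e : ((Rq p a).map fun x => sp (σ x)).prod = ∏ i, sp (σ (fl a (p.x i))) := by
      unfold Rq rM
      rw [Multiset.map_map]
      rfl
    rw [e, prod_mul_distrib, prod_mul_distrib, prod_const, prod_const, card_univ, card_univ,
      Fintype.card_fin, Fintype.card_fin, hs, prod_map_toList]
    simp only [ht, cp, fm]
    ring
  rw [e7, e5, e6]
  unfold pl
  rw [P144Q.B.gibbs_cmul]
  have e8 := mixed h1 h2 hJ h3.1 h3.2 (Rq p a) hsn (t a)
  unfold pl at e8
  rw [e8, ← mul_div_assoc, mul_sum]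
  congr 1
  refine sum_congr rfl fun S _ => ?_
  simp only [hZd, fm]
  ring

end Vale.Agent.P144Y.F
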