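import Vale.Agent.P144Y.R.Rat
import Vale.Agent.P144Y.C.K34
import Vale.Agent.P144Y.V.Dom
import Vale.Agent.P144Y.V.Sand
import Vale.Agent.P144Y.K.KW
import Vale.Agent.P144Y.B.Clu
import Vale.Agent.P144Y.F.All
import Vale.Agent.P144Y.F.Asm
import Vale.Agent.P144Y.L.Lat
import Vale.Agent.P144T.All
import Vale.Agent.P144S.F.Fin
import Vale.Agent.P144S.L.Cls

/-!
The limits for the plus and minus boundary conditions from the blocks.
-/

namespace Vale.Agent.P144Y.F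

open Filter Topology Metric Vale.Agent.P144

/-- The normalisation. -/
theorem normW (h1 : SOne) (h2 : SHole) (Ω Ω' : Dom) (h : Ω'.D = H436.rc '' Ω.D) (hs : Std Ω.D)
    (ho : OutL Ω.D) (hP : ∃ P, FamP Ω.D P) (X S : Finset ℂ) (hX : ∀ z ∈ X, z ∈ Ω.D)
    (hS : ∀ z ∈ S, z ∈ Ext Ω.D) : NormW Ω.D X S := by
  have hr : ∀ P, FamB Ω.D P → RatioX Ω.D P ∧ NormE Ω.D fun a => Vx (P a) := fun P hP =>
    ⟨R.rat K.smm Ω Ω' h P hP, P144T.E.norm _ _ Ω.op Ω.small hP.2.2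
      (P144T.B.ratio P144T.A.xj Ω.toDom Ω'.toDom h _ hP.2.2)⟩
  have hA := all K.smm V.sand
  have hh : ∀ P, FamB Ω.D P → Cv P ∅ S ∧ ∀ z ∈ Ω.D, Cv P {z} S := fun P hP =>
    h2 _ P hs hP (hr P hP).1 (h1 _ P hs hP (hr P hP).1 (hr P hP).2) S hS
  exact hA _ X S hs ho hP fun P hP' => B.sclu K.smm _ P S hs hP' (hr P hP').1 (hr P hP').2 hS
    (hA _ ∅ S hs ho hP fun Q hQ => (hh Q hQ).1)
    (fun z hz => hA _ {z} S hs ho hP fun Q hQ => (hh Q hQ).2 z hz) X hX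

/-- **The result from the blocks.** -/
theorem fin (h1 : SOne) (h2 : SHole) : SFin := by
  intro J hJ D hl hs
  suffices h : AllLim D (crit J D (some fun _ _ => true)) from ⟨h, P144S.F.allLim_minus h⟩
  obtain ⟨t, R0, hsm⟩ := P144Q.U.exists_small hl.2.1
  refine P144S.F.allLim_div R0 ?_
  have h' := P144S.L.lip4_div R0 hl
  have hs' : IsConnected ((fun z => z / (t : ℂ)) '' D) := hs.image _ (by fun_prop)
  generalize (fun z => z / (t : ℂ)) '' D = D' at hsm h' hs'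
  have h3 := P144S.L.lip3_of_lip4 h'
  obtain ⟨Ω, rfl⟩ := V.dom D' h3 hs' hsm
  obtain ⟨Ω', hΩ'⟩ := V.dom _ (P144Q.U.lip3_rc h3) (hs'.image _ P144Q.U.rc_cont.continuousOn)
    (P144Q.U.small_rc hsm)
  have hF := L.slat _ h'
  have st : Std Ω.D := ⟨Ω.op, Ω.small, Ω.fat, hs'.nonempty⟩
  obtain ⟨T, hT, hR⟩ := L.srep _ _ st hF
  exact asm J hJ _ _ T hF hR (fun p hp S hS => C.k34 Ω _ hF p hp S fun z hz => hT z (hS hz))
    fun X hX S hS => (normW h1 h2 Ω Ω' hΩ' st (L.sout _ h3 st.ne) ⟨_, hF⟩ X S hX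
      fun z hz => hT z (hS hz)).imp fun g hg => ⟨hg.1, hg.2 _ hF⟩

end Vale.Agent.P144Y.F
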